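import Mathlib

namespace Vale.Agent.P154.Four

/-- Elementary constraints satisfied by the Walsh invariants (P, U, K) of a point of the simplex. -/
structure Dom (P U K : ℝ) : Prop where
  p0 : 0 ≤ P
  p3 : 0 ≤ 3 - P
  k0 : 0 ≤ K
  m0 : 0 ≤ P ^ 2 - 3 * K
  e4 : 0 ≤ 1 - 2 * P + 8 * U + P ^ 2 - 4 * K
  e3 : 0 ≤ 1 - P + 2 * U
  w0 : 0 ≤ P * K - 9 * U ^ 2
  r0 : 0 ≤ P ^ 3 - 27 * U ^ 2
  v0 : 0 ≤ K ^ 2 - 3 * P * U ^ 2

/-- A sum of two nonnegative numbers dominates the middle term of geometric mean size. -/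
lemma am_gm_nonneg {a b z : ℝ} (ha : 0 ≤ a) (hb : 0 ≤ b) (h : z ^ 2 ≤ 4 * (a * b)) :
    0 ≤ a + b + z := by
  have h2 : (-z) ^ 2 ≤ (a + b) ^ 2 := by nlinarith [sq_nonneg (a - b)]
  have := (abs_le_of_sq_le_sq h2 (by linarith)).trans' (le_abs_self (-z))
  linarith

variable {P U K : ℝ}

lemma genA (h : Dom P U K) (t : ℝ) (ht : 0 < t) (s : ℝ) (hs : s ^ 2 = 1) :
    0 ≤ t * P + (1 / t) * K + 6 * s * U := by
  refine am_gm_nonneg (mul_nonneg ht.le h.p0) (mul_nonneg (by positivity) h.k0) ?_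
  have e : t * P * (1 / t * K) = P * K := by field_simp
  rw [e, mul_pow, mul_pow, hs]
  nlinarith [h.w0]

lemma genB (h : Dom P U K) (t : ℝ) (ht : 0 < t) (s : ℝ) (hs : s ^ 2 = 1) :
    0 ≤ t * P ^ 2 + (1 / t) * P + 10 * s * U := by
  refine am_gm_nonneg (mul_nonneg ht.le (sq_nonneg P)) (mul_nonneg (by positivity) h.p0) ?_
  have e : t * P ^ 2 * (1 / t * P) = P ^ 3 := by field_simp
  rw [e, mul_pow, mul_pow, hs]
  nlinarith [h.r0, pow_nonneg h.p0 3]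

lemma genC (h : Dom P U K) (t : ℝ) (ht : 0 < t) (s : ℝ) (hs : s ^ 2 = 1) :
    0 ≤ t * K + (1 / t) * (P * K) + 3 * s * (U * P) := by
  refine am_gm_nonneg (mul_nonneg ht.le h.k0)
    (mul_nonneg (by positivity) (mul_nonneg h.p0 h.k0)) ?_
  have e : t * K * (1 / t * (P * K)) = K ^ 2 * P := by field_simp
  rw [e, mul_pow, mul_pow, hs]
  nlinarith [mul_nonneg h.p0 h.v0, mul_nonneg h.p0 (mul_nonneg h.k0 h.k0)]

variable {Q V L : ℝ}

lemma genJ (ha : Dom P U K) (hb : Dom Q V L) (t : ℝ) (ht : 0 < t) (s : ℝ) (hs : s ^ 2 = 1) :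
    0 ≤ t * (K * Q) + (1 / t) * (P * L) + 18 * s * (U * V) := by
  refine am_gm_nonneg (mul_nonneg ht.le (mul_nonneg ha.k0 hb.p0))
    (mul_nonneg (by positivity) (mul_nonneg ha.p0 hb.k0)) ?_
  have e : t * (K * Q) * (1 / t * (P * L)) = (P * K) * (Q * L) := by field_simp
  rw [e, mul_pow, mul_pow, hs]
  have := mul_le_mul (show 9 * U ^ 2 ≤ P * K by linarith [ha.w0])
    (show 9 * V ^ 2 ≤ Q * L by linarith [hb.w0]) (by positivity)
    (mul_nonneg ha.p0 ha.k0)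
  nlinarith

lemma genJa (ha : Dom P U K) (hb : Dom Q V L) (t : ℝ) (ht : 0 < t) (s : ℝ) (hs : s ^ 2 = 1) :
    0 ≤ t * (K * Q) + (1 / t) * (P * Q ^ 3) + 6 * s * (U * Q ^ 2) := by
  refine am_gm_nonneg (mul_nonneg ht.le (mul_nonneg ha.k0 hb.p0))
    (mul_nonneg (by positivity) (mul_nonneg ha.p0 (pow_nonneg hb.p0 3))) ?_
  have e : t * (K * Q) * (1 / t * (P * Q ^ 3)) = (P * K) * Q ^ 4 := by field_simp
  rw [e, mul_pow, mul_pow, hs]
  nlinarith [mul_nonneg ha.w0 (pow_nonneg hb.p0 4)]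

lemma genJb (ha : Dom P U K) (hb : Dom Q V L) (t : ℝ) (ht : 0 < t) (s : ℝ) (hs : s ^ 2 = 1) :
    0 ≤ t * (K * Q) + (1 / t) * (P ^ 3 * Q) + 6 * s * (U * P * Q) := by
  refine am_gm_nonneg (mul_nonneg ht.le (mul_nonneg ha.k0 hb.p0))
    (mul_nonneg (by positivity) (mul_nonneg (pow_nonneg ha.p0 3) hb.p0)) ?_
  have e : t * (K * Q) * (1 / t * (P ^ 3 * Q)) = (P * K) * (P * Q) ^ 2 := by field_simp
  rw [e, mul_pow, mul_pow, hs]
  nlinarith [mul_nonneg ha.w0 (sq_nonneg (P * Q))]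

end Vale.Agent.P154.Four
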