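import Vale.Agent.P154.Four.Kron

namespace Vale.Agent.P154.Four

open Kron

/-- Walsh quadratic invariant of a quadruple. -/
def wp (x y z w : ℝ) : ℝ := (x + y - z - w) ^ 2 + (x - y + z - w) ^ 2 + (x - y - z + w) ^ 2

/-- Walsh cubic invariant of a quadruple. -/
def wu (x y z w : ℝ) : ℝ := (x + y - z - w) * (x - y + z - w) * (x - y - z + w)

/-- Walsh quartic invariant of a quadruple. -/
def wk (x y z w : ℝ) : ℝ :=
  (x + y - z - w) ^ 2 * (x - y + z - w) ^ 2 + (x + y - z - w) ^ 2 * (x - y - z + w) ^ 2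
    + (x - y + z - w) ^ 2 * (x - y - z + w) ^ 2

/-- Integer form of hB - S minus its minorant, in square roots of the posterior. -/
def gapR (x y z w : ℝ) : ℝ :=
  let s := x ^ 2 + y ^ 2 + z ^ 2 + w ^ 2
  let P := wp (x ^ 2) (y ^ 2) (z ^ 2) (w ^ 2)
  let U := wu (x ^ 2) (y ^ 2) (z ^ 2) (w ^ 2)
  let K := wk (x ^ 2) (y ^ 2) (z ^ 2) (w ^ 2)
  2000 * (s ^ 6 * (5 * s ^ 2 + -1 * (s * (x + y + z + w) ^ 2) + -4 * (x ^ 4 + y ^ 4 + z ^ 4 + w ^ 4)))
    + 6000 * (U * s ^ 5) + -500 * (P ^ 2 * s ^ 4) + -1875 * (K * s ^ 4) + 3600 * (P * U * s ^ 3)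
    + -228 * (P ^ 3 * s ^ 2) + -220 * P ^ 4 + 675 * (P ^ 2 * K)

/-- Integer form of one minus the multiplier. -/
def upR (x y z w : ℝ) : ℝ :=
  let s := x + y + z + w
  let P := wp x y z w
  let U := wu x y z w
  let K := wk x y z w
  60 * s ^ 6 + -80 * (P * s ^ 4) + 7 * (P ^ 2 * s ^ 2) + 13 * P ^ 3 + 80 * (U * s ^ 3)
    + 160 * (K * s ^ 2) + -260 * (P * U * s)

/-- Integer form of the multiplier minus a quarter of P. -/
def loR (x y z w : ℝ) : ℝ :=
  let s := x + y + z + w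
  let P := wp x y z w
  let U := wu x y z w
  let K := wk x y z w
  65 * (P * s ^ 4) + -7 * (P ^ 2 * s ^ 2) + -13 * P ^ 3 + -80 * (U * s ^ 3)
    + -160 * (K * s ^ 2) + 260 * (P * U * s)

/-- Difference. -/
def Kron.Ex.sub (p q : Ex) : Ex := .add p (.mul (.cst (-1)) q)

/-- The three Walsh coordinates of four expressions. -/
def axE (f : Fin 4 → Ex) : Ex × Ex × Ex :=
  (.sub (.add (f 0) (f 1)) (.add (f 2) (f 3)), .sub (.add (f 0) (f 2)) (.add (f 1) (f 3)),
    .sub (.add (f 0) (f 3)) (.add (f 1) (f 2)))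

/-- Sum of four expressions. -/
def sumE (f : Fin 4 → Ex) : Ex := .add (.add (.add (f 0) (f 1)) (f 2)) (f 3)

/-- Expression of the quadratic invariant. -/
def pE (f : Fin 4 → Ex) : Ex :=
  let a := axE f
  .add (.add (.pow a.1 2) (.pow a.2.1 2)) (.pow a.2.2 2)

/-- Expression of the cubic invariant. -/
def uE (f : Fin 4 → Ex) : Ex :=
  let a := axE f
  .mul (.mul a.1 a.2.1) a.2.2

/-- Expression of the quartic invariant. -/
def kE (f : Fin 4 → Ex) : Ex :=
  let a := axE f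
  .add (.add (.mul (.pow a.1 2) (.pow a.2.1 2)) (.mul (.pow a.1 2) (.pow a.2.2 2)))
    (.mul (.pow a.2.1 2) (.pow a.2.2 2))

/-- Expression of gapR. -/
def gapE (f : Fin 4 → Ex) : Ex :=
  let v : Fin 4 → Ex := fun i => .pow (f i) 2
  let s := sumE v
  let P := pE v
  let U := uE v
  let K := kE v
  .add (.add (.add (.add (.add (.add (.add
    (.mul (.cst 2000) (.mul (.pow s 6) (.add (.add (.mul (.cst 5) (.pow s 2))
      (.mul (.cst (-1)) (.mul s (.pow (sumE f) 2))))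
      (.mul (.cst (-4)) (sumE fun i => .pow (f i) 4)))))
    (.mul (.cst 6000) (.mul U (.pow s 5))))
    (.mul (.cst (-500)) (.mul (.pow P 2) (.pow s 4))))
    (.mul (.cst (-1875)) (.mul K (.pow s 4))))
    (.mul (.cst 3600) (.mul (.mul P U) (.pow s 3))))
    (.mul (.cst (-228)) (.mul (.pow P 3) (.pow s 2))))
    (.mul (.cst (-220)) (.pow P 4)))
    (.mul (.cst 675) (.mul (.pow P 2) K))

/-- Expression of upR. -/
def upE (f : Fin 4 → Ex) : Ex :=
  let s := sumE f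
  let P := pE f
  let U := uE f
  let K := kE f
  .add (.add (.add (.add (.add (.add
    (.mul (.cst 60) (.pow s 6))
    (.mul (.cst (-80)) (.mul P (.pow s 4))))
    (.mul (.cst 7) (.mul (.pow P 2) (.pow s 2))))
    (.mul (.cst 13) (.pow P 3)))
    (.mul (.cst 80) (.mul U (.pow s 3))))
    (.mul (.cst 160) (.mul K (.pow s 2))))
    (.mul (.cst (-260)) (.mul (.mul P U) s))

/-- Expression of loR. -/
def loE (f : Fin 4 → Ex) : Ex :=
  let s := sumE f
  let P := pE f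
  let U := uE f
  let K := kE f
  .add (.add (.add (.add (.add
    (.mul (.cst 65) (.mul P (.pow s 4)))
    (.mul (.cst (-7)) (.mul (.pow P 2) (.pow s 2))))
    (.mul (.cst (-13)) (.pow P 3)))
    (.mul (.cst (-80)) (.mul U (.pow s 3))))
    (.mul (.cst (-160)) (.mul K (.pow s 2))))
    (.mul (.cst 260) (.mul (.mul P U) s))

lemma gapE_ev (f : Fin 4 → Ex) (x : Fin 4 → ℝ) :
    (gapE f).evR x = gapR ((f 0).evR x) ((f 1).evR x) ((f 2).evR x) ((f 3).evR x) := by
  simp [gapE, gapR, sumE, pE, uE, kE, axE, wp, wu, wk, Ex.sub, Ex.evR]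
  ring

lemma upE_ev (f : Fin 4 → Ex) (x : Fin 4 → ℝ) :
    (upE f).evR x = upR ((f 0).evR x) ((f 1).evR x) ((f 2).evR x) ((f 3).evR x) := by
  simp [upE, upR, sumE, pE, uE, kE, axE, wp, wu, wk, Ex.sub, Ex.evR]
  ring

lemma loE_ev (f : Fin 4 → Ex) (x : Fin 4 → ℝ) :
    (loE f).evR x = loR ((f 0).evR x) ((f 1).evR x) ((f 2).evR x) ((f 3).evR x) := by
  simp [loE, loR, sumE, pE, uE, kE, axE, wp, wu, wk, Ex.sub, Ex.evR]
  ring

/-- Linear form with natural coefficients. -/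
def lin (a b c d : ℕ) : Ex :=
  .add (.add (.add (.mul (.cst a) (.var 0)) (.mul (.cst b) (.var 1))) (.mul (.cst c) (.var 2)))
    (.mul (.cst d) (.var 3))

/-- Sorted quadruple from a matrix of increments. -/
def incr (ra rb rc rd : Ex) : Fin 4 → Ex :=
  ![.add (.add (.add ra rb) rc) rd, .add (.add ra rb) rc, .add ra rb, ra]

lemma lin_ev (a b c d : ℕ) (x : Fin 4 → ℝ) :
    (lin a b c d).evR x = a * x 0 + b * x 1 + c * x 2 + d * x 3 := by simp [lin, Ex.evR]

end Vale.Agent.P154.Four
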