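import Vale.Agent.P154.Four.GapCert

namespace Vale.Agent.P154.Four

open Kron

lemma ev_incr (A B C D : Ex) (x : Fin 4 → ℝ) (a b c d : ℝ) (hA : A.evR x = a) (hB : B.evR x = b)
    (hC : C.evR x = c) (hD : D.evR x = d) :
    ((incr A B C D 0).evR x = a + b + c + d ∧ (incr A B C D 1).evR x = a + b + c ∧
      (incr A B C D 2).evR x = a + b ∧ (incr A B C D 3).evR x = a) := by
  simp [incr, Ex.evR, hA, hB, hC, hD]

lemma of_test {E : (Fin 4 → Ex) → Ex} {R : ℝ → ℝ → ℝ → ℝ → ℝ}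
    (hE : ∀ f x, (E f).evR x = R ((f 0).evR x) ((f 1).evR x) ((f 2).evR x) ((f 3).evR x))
    {A B C D : Ex} {n k : ℕ} (ht : test (E (incr A B C D)) n k 200 = true) {x : Fin 4 → ℝ}
    (hx : ∀ i, 0 ≤ x i) {a b c d : ℝ} (hA : A.evR x = a) (hB : B.evR x = b) (hC : C.evR x = c)
    (hD : D.evR x = d) : 0 ≤ R (a + b + c + d) (a + b + c) (a + b) a := by
  obtain ⟨e0, e1, e2, e3⟩ := ev_incr A B C D x a b c d hA hB hC hD
  have h := nonneg_of_test _ n k 200 ht x hx
  rwa [hE, e0, e1, e2, e3] at h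

lemma vec_nonneg {a b c d : ℝ} (ha : 0 ≤ a) (hb : 0 ≤ b) (hc : 0 ≤ c) (hd : 0 ≤ d) :
    ∀ i, 0 ≤ (![a, b, c, d] : Fin 4 → ℝ) i := by
  intro i; fin_cases i <;> assumption

lemma gap_inc {a b c d : ℝ} (ha : 0 ≤ a) (hb : 0 ≤ b) (hc : 0 ≤ c) (hd : 0 ≤ d) :
    0 ≤ gapR (a + b + c + d) (a + b + c) (a + b) a := by
  rcases le_total d (4 * b) with h1 | h1
  · exact of_test gapE_ev test_G1 (x := ![a, b - d / 4, c, d / 4])
      (vec_nonneg ha (by linarith) hc (by linarith))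
      (by simp [lin_ev]) (by simp [lin_ev]) (by simp [lin_ev]) (by simp [lin_ev] <;> ring)
  rcases le_total a c with h2 | h2
  · -- here c = c' + a
    rcases le_total (d - 4 * b) a with h3 | h3
    · exact of_test gapE_ev test_G5 (x := ![a - (d - 4 * b), b, c - a, d - 4 * b])
        (vec_nonneg (by linarith) hb (by linarith) (by linarith))
        (by simp [lin_ev]) (by simp [lin_ev]) (by simp [lin_ev] <;> ring) (by simp [lin_ev])
    · exact of_test gapE_ev test_G6 (x := ![a, b, c - a, d - 4 * b - a])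
        (vec_nonneg ha hb (by linarith) (by linarith))
        (by simp [lin_ev]) (by simp [lin_ev]) (by simp [lin_ev]) (by simp [lin_ev] <;> ring)
  · rcases le_total (d - 4 * b) c with h3 | h3
    · exact of_test gapE_ev test_G2 (x := ![a - c, b, c - (d - 4 * b), d - 4 * b])
        (vec_nonneg (by linarith) hb (by linarith) (by linarith))
        (by simp [lin_ev] <;> ring) (by simp [lin_ev]) (by simp [lin_ev]) (by simp [lin_ev])
    rcases le_total (d - 4 * b - c) (3 * (a - c)) with h4 | h4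
    · exact of_test gapE_ev test_G4
        (x := ![a - c - (d - 4 * b - c) / 3, b, c, (d - 4 * b - c) / 3])
        (vec_nonneg (by linarith) hb hc (by linarith))
        (by simp [lin_ev] <;> ring) (by simp [lin_ev]) (by simp [lin_ev]) (by simp [lin_ev] <;> ring)
    · exact of_test gapE_ev test_G3 (x := ![a - c, b, c, d - 4 * b - c - 3 * (a - c)])
        (vec_nonneg (by linarith) hb hc (by linarith))
        (by simp [lin_ev]) (by simp [lin_ev]) (by simp [lin_ev]) (by simp [lin_ev] <;> ring)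

lemma up_inc {a b c d : ℝ} (ha : 0 ≤ a) (hb : 0 ≤ b) (hc : 0 ≤ c) (hd : 0 ≤ d) :
    0 ≤ upR (a + b + c + d) (a + b + c) (a + b) a := by
  rcases le_total d (3 * a) with h1 | h1
  · exact of_test upE_ev test_U1 (x := ![a - d / 3, b, c, d / 3])
      (vec_nonneg (by linarith) hb hc (by linarith))
      (by simp [lin_ev]) (by simp [lin_ev]) (by simp [lin_ev]) (by simp [lin_ev] <;> ring)
  rcases le_total (d - 3 * a) (2 * b) with h2 | h2
  · exact of_test upE_ev test_U2 (x := ![a, b - (d - 3 * a) / 2, c, (d - 3 * a) / 2])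
      (vec_nonneg ha (by linarith) hc (by linarith))
      (by simp [lin_ev]) (by simp [lin_ev]) (by simp [lin_ev]) (by simp [lin_ev] <;> ring)
  rcases le_total (d - 3 * a - 2 * b) c with h3 | h3
  · exact of_test upE_ev test_U3 (x := ![a, b, c - (d - 3 * a - 2 * b), d - 3 * a - 2 * b])
      (vec_nonneg ha hb (by linarith) (by linarith))
      (by simp [lin_ev]) (by simp [lin_ev]) (by simp [lin_ev]) (by simp [lin_ev])
  · exact of_test upE_ev test_U4 (x := ![a, b, c, d - 3 * a - 2 * b - c])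
      (vec_nonneg ha hb hc (by linarith))
      (by simp [lin_ev]) (by simp [lin_ev]) (by simp [lin_ev]) (by simp [lin_ev] <;> ring)

lemma lo_inc {a b c d : ℝ} (ha : 0 ≤ a) (hb : 0 ≤ b) (hc : 0 ≤ c) (hd : 0 ≤ d) :
    0 ≤ loR (a + b + c + d) (a + b + c) (a + b) a :=
  of_test loE_ev test_L1 (x := ![a, b, c, d]) (vec_nonneg ha hb hc hd)
    (by simp [lin_ev]) (by simp [lin_ev]) (by simp [lin_ev]) (by simp [lin_ev])

/-- Power sum. -/
def psum (x : Fin 4 → ℝ) (n : ℕ) : ℝ := ∑ i, x i ^ n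

lemma psum_perm (x : Fin 4 → ℝ) (s : Equiv.Perm (Fin 4)) (n : ℕ) :
    psum (fun i => x (s i)) n = psum x n := Equiv.sum_comp s (fun i => x i ^ n)

lemma wp_psum (x : Fin 4 → ℝ) :
    wp (x 0) (x 1) (x 2) (x 3) = 4 * psum x 2 - psum x 1 ^ 2 := by
  simp [wp, psum, Fin.sum_univ_four]; ring

lemma wu_psum (x : Fin 4 → ℝ) :
    wu (x 0) (x 1) (x 2) (x 3) = (8 * psum x 3 - 6 * psum x 2 * psum x 1 + psum x 1 ^ 3) / 3 := by
  simp [wu, psum, Fin.sum_univ_four]; ring

lemma wk_psum (x : Fin 4 → ℝ) :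
    wk (x 0) (x 1) (x 2) (x 3) = (64 * psum x 4 - 64 * psum x 3 * psum x 1
      + 24 * psum x 2 * psum x 1 ^ 2 - 3 * psum x 1 ^ 4 - (4 * psum x 2 - psum x 1 ^ 2) ^ 2) / 4 := by
  simp [wk, psum, Fin.sum_univ_four]; ring

/-- From sorted quadruples to all quadruples. -/
lemma of_sorted (R : ℝ → ℝ → ℝ → ℝ → ℝ)
    (hsym : ∀ (x : Fin 4 → ℝ) (s : Equiv.Perm (Fin 4)),
      R (x (s 0)) (x (s 1)) (x (s 2)) (x (s 3)) = R (x 0) (x 1) (x 2) (x 3))
    (h : ∀ {a b c d : ℝ}, 0 ≤ a → 0 ≤ b → 0 ≤ c → 0 ≤ d →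
      0 ≤ R (a + b + c + d) (a + b + c) (a + b) a)
    (x : Fin 4 → ℝ) (hx : ∀ i, 0 ≤ x i) : 0 ≤ R (x 0) (x 1) (x 2) (x 3) := by
  set p := Tuple.sort x with hp
  have hm := Tuple.monotone_sort x
  rw [← hp] at hm
  have h01 := hm (show (0 : Fin 4) ≤ 1 by decide)
  have h12 := hm (show (1 : Fin 4) ≤ 2 by decide)
  have h23 := hm (show (2 : Fin 4) ≤ 3 by decide)
  simp only [Function.comp] at h01 h12 h23
  let r : Equiv.Perm (Fin 4) := Fin.revPerm.trans p
  have e := hsym x r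
  rw [← e]
  have := h (hx (p 0)) (sub_nonneg.2 h01) (sub_nonneg.2 h12) (sub_nonneg.2 h23)
  simp only [add_sub_cancel] at this
  simpa [r] using this

theorem gap_nonneg4 (x : Fin 4 → ℝ) (hx : ∀ i, 0 ≤ x i) : 0 ≤ gapR (x 0) (x 1) (x 2) (x 3) := by
  refine of_sorted gapR ?_ (fun {a b c d} => gap_inc) x hx
  intro y s
  have key : ∀ z : Fin 4 → ℝ, gapR (z 0) (z 1) (z 2) (z 3) =
      (let s := psum z 2
       let P := 4 * psum (fun i => z i ^ 2) 2 - psum (fun i => z i ^ 2) 1 ^ 2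
       let U := (8 * psum (fun i => z i ^ 2) 3 - 6 * psum (fun i => z i ^ 2) 2
          * psum (fun i => z i ^ 2) 1 + psum (fun i => z i ^ 2) 1 ^ 3) / 3
       let K := (64 * psum (fun i => z i ^ 2) 4 - 64 * psum (fun i => z i ^ 2) 3
          * psum (fun i => z i ^ 2) 1 + 24 * psum (fun i => z i ^ 2) 2
          * psum (fun i => z i ^ 2) 1 ^ 2 - 3 * psum (fun i => z i ^ 2) 1 ^ 4
          - (4 * psum (fun i => z i ^ 2) 2 - psum (fun i => z i ^ 2) 1 ^ 2) ^ 2) / 4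
       2000 * (s ^ 6 * (5 * s ^ 2 + -1 * (s * psum z 1 ^ 2) + -4 * psum z 4))
        + 6000 * (U * s ^ 5) + -500 * (P ^ 2 * s ^ 4) + -1875 * (K * s ^ 4)
        + 3600 * (P * U * s ^ 3) + -228 * (P ^ 3 * s ^ 2) + -220 * P ^ 4
        + 675 * (P ^ 2 * K)) := by
    intro z
    simp only [gapR]
    rw [wp_psum (fun i => z i ^ 2), wu_psum (fun i => z i ^ 2), wk_psum (fun i => z i ^ 2)]
    simp only [psum, Fin.sum_univ_four, pow_one]
  rw [key (fun i => y (s i)), key y]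
  simp only [psum_perm y s, psum_perm (fun i => y i ^ 2) s]

theorem up_nonneg4 (x : Fin 4 → ℝ) (hx : ∀ i, 0 ≤ x i) : 0 ≤ upR (x 0) (x 1) (x 2) (x 3) := by
  refine of_sorted upR ?_ (fun {a b c d} => up_inc) x hx
  intro y s
  have e : ∀ z : Fin 4 → ℝ, z 0 + z 1 + z 2 + z 3 = psum z 1 := by
    intro z; simp [psum, Fin.sum_univ_four]
  simp only [upR, wp_psum (fun i => y (s i)), wu_psum (fun i => y (s i)),
    wk_psum (fun i => y (s i)), e (fun i => y (s i)), psum_perm y s, wp_psum y, wu_psum y,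
    wk_psum y, e y]

theorem lo_nonneg4 (x : Fin 4 → ℝ) (hx : ∀ i, 0 ≤ x i) : 0 ≤ loR (x 0) (x 1) (x 2) (x 3) := by
  refine of_sorted loR ?_ (fun {a b c d} => lo_inc) x hx
  intro y s
  have e : ∀ z : Fin 4 → ℝ, z 0 + z 1 + z 2 + z 3 = psum z 1 := by
    intro z; simp [psum, Fin.sum_univ_four]
  simp only [loR, wp_psum (fun i => y (s i)), wu_psum (fun i => y (s i)),
    wk_psum (fun i => y (s i)), e (fun i => y (s i)), psum_perm y s, wp_psum y, wu_psum y,
    wk_psum y, e y]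

end Vale.Agent.P154.Four
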