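import Vale.Agent.P154.Four.Gap

namespace Vale.Agent.P154.Four

open Kron

/-- A substitution region. -/
def regG1 : Fin 4 → Ex := incr (lin 1 0 0 0) (lin 0 1 0 1) (lin 0 0 1 0) (lin 0 0 0 4)

lemma test_G1 : test (gapE regG1) 16 13 200 = true := by decide +kernel

/-- A substitution region. -/
def regG2 : Fin 4 → Ex := incr (lin 1 0 1 1) (lin 0 1 0 0) (lin 0 0 1 1) (lin 0 4 0 1)

lemma test_G2 : test (gapE regG2) 16 13 200 = true := by decide +kernel

/-- A substitution region. -/
def regG3 : Fin 4 → Ex := incr (lin 1 0 1 0) (lin 0 1 0 0) (lin 0 0 1 0) (lin 3 4 1 1)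

lemma test_G3 : test (gapE regG3) 16 13 200 = true := by decide +kernel

/-- A substitution region. -/
def regG4 : Fin 4 → Ex := incr (lin 1 0 1 1) (lin 0 1 0 0) (lin 0 0 1 0) (lin 0 4 1 3)

lemma test_G4 : test (gapE regG4) 16 13 200 = true := by decide +kernel

/-- A substitution region. -/
def regG5 : Fin 4 → Ex := incr (lin 1 0 0 1) (lin 0 1 0 0) (lin 1 0 1 1) (lin 0 4 0 1)

lemma test_G5 : test (gapE regG5) 16 13 200 = true := by decide +kernel

/-- A substitution region. -/
def regG6 : Fin 4 → Ex := incr (lin 1 0 0 0) (lin 0 1 0 0) (lin 1 0 1 0) (lin 1 4 0 1)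

lemma test_G6 : test (gapE regG6) 16 13 200 = true := by decide +kernel

/-- A substitution region. -/
def regU1 : Fin 4 → Ex := incr (lin 1 0 0 1) (lin 0 1 0 0) (lin 0 0 1 0) (lin 0 0 0 3)

lemma test_U1 : test (upE regU1) 6 9 200 = true := by decide +kernel

/-- A substitution region. -/
def regU2 : Fin 4 → Ex := incr (lin 1 0 0 0) (lin 0 1 0 1) (lin 0 0 1 0) (lin 3 0 0 2)

lemma test_U2 : test (upE regU2) 6 9 200 = true := by decide +kernel

/-- A substitution region. -/
def regU3 : Fin 4 → Ex := incr (lin 1 0 0 0) (lin 0 1 0 0) (lin 0 0 1 1) (lin 3 2 0 1)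

lemma test_U3 : test (upE regU3) 6 9 200 = true := by decide +kernel

/-- A substitution region. -/
def regU4 : Fin 4 → Ex := incr (lin 1 0 0 0) (lin 0 1 0 0) (lin 0 0 1 0) (lin 3 2 1 1)

lemma test_U4 : test (upE regU4) 6 9 200 = true := by decide +kernel

/-- A substitution region. -/
def regL1 : Fin 4 → Ex := incr (lin 1 0 0 0) (lin 0 1 0 0) (lin 0 0 1 0) (lin 0 0 0 1)

lemma test_L1 : test (loE regL1) 6 9 200 = true := by decide +kernel

end Vale.Agent.P154.Four
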