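import Mathlib

namespace Vale.Agent.P154.Four.Kron

open MvPolynomial Finset

/-- Polynomial expressions in four variables with integer coefficients. -/
inductive Ex : Type
  | var (i : Fin 4)
  | cst (n : ℤ)
  | add (p q : Ex)
  | mul (p q : Ex)
  | pow (p : Ex) (n : ℕ)

/-- Value over the reals. -/
noncomputable def Ex.evR : Ex → (Fin 4 → ℝ) → ℝ
  | .var i, x => x i
  | .cst n, _ => n
  | .add p q, x => p.evR x + q.evR x
  | .mul p q, x => p.evR x * q.evR x
  | .pow p n, x => p.evR x ^ n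

/-- Substitution. -/
def Ex.subst : Ex → (Fin 4 → Ex) → Ex
  | .var i, f => f i
  | .cst n, _ => .cst n
  | .add p q, f => .add (p.subst f) (q.subst f)
  | .mul p q, f => .mul (p.subst f) (q.subst f)
  | .pow p n, f => .pow (p.subst f) n

lemma Ex.evR_subst (e : Ex) (f : Fin 4 → Ex) (x : Fin 4 → ℝ) :
    (e.subst f).evR x = e.evR (fun i => (f i).evR x) := by
  induction e <;> simp_all [Ex.subst, Ex.evR]

/-- Value at an integer point. -/
def Ex.evZ : Ex → ℤ → ℤ → ℤ → ℤ
  | .var ⟨0, _⟩, a, _, _ => a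
  | .var ⟨1, _⟩, _, b, _ => b
  | .var ⟨2, _⟩, _, _, c => c
  | .var _, _, _, _ => 1
  | .cst n, _, _, _ => n
  | .add p q, a, b, c => p.evZ a b c + q.evZ a b c
  | .mul p q, a, b, c => p.evZ a b c * q.evZ a b c
  | .pow p n, a, b, c => p.evZ a b c ^ n

/-- A bound on the absolute values of all coefficients. -/
def Ex.nrm : Ex → ℕ
  | .var _ => 1
  | .cst n => n.natAbs
  | .add p q => p.nrm + q.nrm
  | .mul p q => p.nrm * q.nrm
  | .pow p n => p.nrm ^ n

/-- Degree, when the expression is visibly homogeneous. -/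
def Ex.deg : Ex → Option ℕ
  | .var _ => some 1
  | .cst _ => some 0
  | .add p q => match p.deg, q.deg with
    | some a, some b => if a = b then some a else none
    | _, _ => none
  | .mul p q => match p.deg, q.deg with
    | some a, some b => some (a + b)
    | _, _ => none
  | .pow p n => match p.deg with
    | some a => some (a * n)
    | none => none

/-- The polynomial of an expression. -/
noncomputable def Ex.poly : Ex → MvPolynomial (Fin 4) ℤ
  | .var i => X i
  | .cst n => C n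
  | .add p q => p.poly + q.poly
  | .mul p q => p.poly * q.poly
  | .pow p n => p.poly ^ n

lemma Ex.aeval_poly (e : Ex) (x : Fin 4 → ℝ) : aeval x e.poly = e.evR x := by
  induction e <;> simp_all [Ex.poly, Ex.evR]

lemma Ex.eval_poly (e : Ex) (a b c : ℤ) : eval ![a, b, c, 1] e.poly = e.evZ a b c := by
  induction e with
  | var i => fin_cases i <;> simp [Ex.poly] <;> rfl
  | cst n => simp [Ex.poly, Ex.evZ]
  | add p q ihp ihq => simp [Ex.poly, Ex.evZ, ihp, ihq]
  | mul p q ihp ihq => simp [Ex.poly, Ex.evZ, ihp, ihq]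
  | pow p n ih => simp [Ex.poly, Ex.evZ, ih]

lemma Ex.homogeneous (e : Ex) : ∀ D, e.deg = some D → e.poly.IsHomogeneous D := by
  induction e with
  | var i => intro D h; simp [Ex.deg] at h; subst h; exact isHomogeneous_X ℤ i
  | cst n => intro D h; simp [Ex.deg] at h; subst h; exact isHomogeneous_C _ _
  | add p q ihp ihq =>
    intro D h
    rcases hp : p.deg with _ | a <;> rcases hq : q.deg with _ | b <;> simp [Ex.deg, hp, hq] at h
    obtain ⟨rfl, rfl⟩ := h
    exact (ihp _ hp).add (ihq _ hq)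
  | mul p q ihp ihq =>
    intro D h
    rcases hp : p.deg with _ | a <;> rcases hq : q.deg with _ | b <;> simp [Ex.deg, hp, hq] at h
    subst h
    exact (ihp _ hp).mul (ihq _ hq)
  | pow p n ih =>
    intro D h
    rcases hp : p.deg with _ | a <;> simp [Ex.deg, hp] at h
    subst h
    exact (ih _ hp).pow n

/-- Coefficientwise domination. -/
def Dominates (A P : MvPolynomial (Fin 4) ℤ) : Prop := ∀ m, |coeff m P| ≤ coeff m A

lemma Dominates.mul {A P B Q : MvPolynomial (Fin 4) ℤ} (h1 : Dominates A P)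
    (h2 : Dominates B Q) : Dominates (A * B) (P * Q) := by
  intro m
  classical
  rw [coeff_mul, coeff_mul]
  refine (Finset.abs_sum_le_sum_abs _ _).trans (Finset.sum_le_sum fun x _ => ?_)
  rw [abs_mul]
  exact mul_le_mul (h1 _) (h2 _) (abs_nonneg _) ((abs_nonneg _).trans (h1 _))

lemma Dominates.pow {A P : MvPolynomial (Fin 4) ℤ} (h : Dominates A P) :
    ∀ n : ℕ, Dominates (A ^ n) (P ^ n)
  | 0 => fun m => by
    classical
    simp only [pow_zero, coeff_one]
    split_ifs <;> simp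
  | n + 1 => by rw [pow_succ, pow_succ]; exact (h.pow n).mul h

lemma Ex.exists_dominating (e : Ex) :
    ∃ A, Dominates A e.poly ∧ eval (fun _ => (1 : ℤ)) A = (e.nrm : ℤ) := by
  classical
  induction e with
  | var i =>
    exact ⟨X i, fun m => by simp only [Ex.poly, coeff_X']; split_ifs <;> simp, by simp [Ex.nrm]⟩
  | cst n =>
    exact ⟨C |n|, fun m => by simp only [Ex.poly, coeff_C]; split_ifs <;> simp,
      by simp [Ex.nrm]⟩
  | add p q ihp ihq =>
    obtain ⟨A, hA, eA⟩ := ihp
    obtain ⟨B, hB, eB⟩ := ihq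
    refine ⟨A + B, fun m => ?_, by simp [Ex.nrm, eA, eB]⟩
    simp only [Ex.poly, coeff_add]
    exact (abs_add_le _ _).trans (add_le_add (hA m) (hB m))
  | mul p q ihp ihq =>
    obtain ⟨A, hA, eA⟩ := ihp
    obtain ⟨B, hB, eB⟩ := ihq
    exact ⟨A * B, hA.mul hB, by simp [Ex.nrm, eA, eB]⟩
  | pow p n ih =>
    obtain ⟨A, hA, eA⟩ := ih
    exact ⟨A ^ n, hA.pow n, by simp [Ex.nrm, eA]⟩

lemma Ex.coeff_le (e : Ex) (m : Fin 4 →₀ ℕ) : |coeff m e.poly| ≤ (e.nrm : ℤ) := by
  obtain ⟨A, hA, eA⟩ := e.exists_dominating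
  refine (hA m).trans ?_
  rw [← eA, eval_eq]
  simp only [one_pow, Finset.prod_const_one, mul_one]
  by_cases hm : m ∈ A.support
  · exact Finset.single_le_sum (fun d _ => (abs_nonneg _).trans (hA d)) hm
  · rw [notMem_support_iff] at hm
    rw [hm]
    exact Finset.sum_nonneg fun d _ => (abs_nonneg _).trans (hA d)

/-- Digit test by halving. -/
def check (B h : ℕ) : ℕ → ℕ → Bool
  | 0, T => decide (h ≤ T)
  | k + 1, T => check B h k (T % B ^ (2 ^ k)) && check B h k (T / B ^ (2 ^ k))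

/-- The repunit with 2^k digits. -/
def rep (B : ℕ) : ℕ → ℕ
  | 0 => 1
  | k + 1 => rep B k * (1 + B ^ (2 ^ k))

lemma digits_lt {B : ℕ} (g : ℕ → ℕ) (hg : ∀ i, g i < B) :
    ∀ n, ∑ i ∈ range n, g i * B ^ i < B ^ n
  | 0 => by simp
  | n + 1 => by
    rw [sum_range_succ]
    have h1 := digits_lt g hg n
    have h2 := Nat.mul_le_mul_right (B ^ n) (hg n)
    rw [Nat.succ_mul] at h2
    calc ∑ i ∈ range n, g i * B ^ i + g n * B ^ n < g n * B ^ n + B ^ n := by linarith
      _ ≤ B * B ^ n := h2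
      _ = B ^ (n + 1) := by rw [pow_succ, mul_comm]

lemma check_sound {B h : ℕ} (hB : 0 < B) :
    ∀ (k : ℕ) (g : ℕ → ℕ), (∀ i, g i < B) →
      check B h k (∑ i ∈ range (2 ^ k), g i * B ^ i) = true → ∀ i < 2 ^ k, h ≤ g i
  | 0, g, _, hc, i, hi => by
    simp [check] at hc hi
    subst hi
    exact hc
  | k + 1, g, hg, hc, i, hi => by
    set n := 2 ^ k with hn
    have h2 : 2 ^ (k + 1) = n + n := by rw [pow_succ]; omega
    have hsum : ∑ i ∈ range (2 ^ (k + 1)), g i * B ^ i
        = ∑ i ∈ range n, g i * B ^ i + B ^ n * ∑ i ∈ range n, g (n + i) * B ^ i := by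
      rw [h2, sum_range_add, mul_sum]
      congr 1
      refine sum_congr rfl fun i _ => ?_
      rw [pow_add]; ring
    have hlow := digits_lt g hg n
    simp only [check, Bool.and_eq_true, hsum, ← hn] at hc
    rw [Nat.add_mul_mod_self_left, Nat.mod_eq_of_lt hlow,
      Nat.add_mul_div_left _ _ (pow_pos hB n), Nat.div_eq_of_lt hlow, zero_add] at hc
    rcases lt_or_ge i n with hin | hin
    · exact check_sound hB k g hg hc.1 i hin
    · have := check_sound hB k (fun j => g (n + j)) (fun j => hg _) hc.2 (i - n) (by omega)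
      simpa [Nat.add_sub_cancel' hin] using this

lemma rep_eq (B : ℕ) : ∀ k, rep B k = ∑ i ∈ range (2 ^ k), B ^ i
  | 0 => by simp [rep]
  | k + 1 => by
    rw [rep, rep_eq B k, show 2 ^ (k + 1) = 2 ^ k + 2 ^ k by rw [pow_succ]; omega, sum_range_add,
      mul_add, mul_one, sum_mul]
    congr 1
    exact sum_congr rfl fun i _ => by rw [pow_add]; ring

/-- Exponent index of a monomial of total degree below W, the last variable dropped. -/
def idx (W : ℕ) (m : Fin 4 →₀ ℕ) : ℕ := m 0 + W * m 1 + W ^ 2 * m 2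

/-- Positivity test. -/
def test (e : Ex) (D k s : ℕ) : Bool :=
  decide (e.deg = some D) && decide (e.nrm < 2 ^ s) && decide ((D + 1) ^ 3 ≤ 2 ^ k) &&
    (let B : ℕ := 2 ^ (s + 1)
     let T := e.evZ B ((B ^ (D + 1) : ℕ) : ℤ) ((B ^ ((D + 1) ^ 2) : ℕ) : ℤ)
       + ((2 ^ s * rep B k : ℕ) : ℤ)
     check B (2 ^ s) k T.toNat)

theorem nonneg_of_test (e : Ex) (D k s : ℕ) (ht : test e D k s = true) (x : Fin 4 → ℝ)
    (hx : ∀ i, 0 ≤ x i) : 0 ≤ e.evR x := by
  classical
  simp only [test, Bool.and_eq_true, decide_eq_true_eq] at ht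
  obtain ⟨⟨⟨hdeg, hn⟩, hk⟩, hc⟩ := ht
  set W := D + 1 with hW
  set B := 2 ^ (s + 1) with hBdef
  set P := e.poly with hP
  have hhom := e.homogeneous D hdeg
  have hsumdeg : ∀ m ∈ P.support, m 0 + m 1 + m 2 + m 3 = D := by
    intro m hm
    have h := hhom (mem_support_iff.1 hm)
    rw [Finsupp.weight_apply] at h
    simp [Finsupp.sum_fintype, Fin.sum_univ_four] at h
    omega
  have hidx : ∀ m ∈ P.support, idx W m < 2 ^ k := by
    intro m hm
    have := hsumdeg m hm
    have h0 : m 0 < W := by omega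
    have h1 : W * m 1 + W ≤ W * W := by
      have : m 1 + 1 ≤ W := by omega
      nlinarith
    have h2 : W ^ 2 * m 2 + W ^ 2 ≤ W ^ 3 := by
      have : m 2 + 1 ≤ W := by omega
      nlinarith
    have : W * W = W ^ 2 := by ring
    unfold idx
    omega
  have hinj : Set.InjOn (idx W) (P.support : Set (Fin 4 →₀ ℕ)) := by
    intro m hm m' hm' he
    have e1 := hsumdeg m hm
    have e2 := hsumdeg m' hm'
    have r : ∀ n : Fin 4 →₀ ℕ, idx W n = n 0 + W * (n 1 + W * n 2) := by
      intro n; unfold idx; ring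
    rw [r, r] at he
    have a0 : m 0 = m' 0 := by
      have := congrArg (· % W) he
      simpa [Nat.add_mul_mod_self_left, Nat.mod_eq_of_lt (show m 0 < W by omega),
        Nat.mod_eq_of_lt (show m' 0 < W by omega)] using this
    have he' : m 1 + W * m 2 = m' 1 + W * m' 2 :=
      Nat.eq_of_mul_eq_mul_left (show 0 < W by omega) (by omega)
    have a1 : m 1 = m' 1 := by
      have := congrArg (· % W) he'
      simpa [Nat.add_mul_mod_self_left, Nat.mod_eq_of_lt (show m 1 < W by omega),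
        Nat.mod_eq_of_lt (show m' 1 < W by omega)] using this
    have a2 : m 2 = m' 2 :=
      Nat.eq_of_mul_eq_mul_left (show 0 < W by omega) (by omega)
    have a3 : m 3 = m' 3 := by omega
    ext i; fin_cases i <;> assumption
  let f : ℕ → ℤ := fun i => ∑ m ∈ P.support with idx W m = i, coeff m P
  have hfm : ∀ m ∈ P.support, f (idx W m) = coeff m P := by
    intro m hm
    refine Finset.sum_eq_single m (fun m' hm' hne => ?_) (fun h => ?_)
    · rw [Finset.mem_filter] at hm'
      exact absurd (hinj hm'.1 hm hm'.2) hne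
    · exact absurd (Finset.mem_filter.2 (show m ∈ P.support ∧ idx W m = idx W m from ⟨hm, rfl⟩)) h
  have hfb : ∀ i, |f i| ≤ (e.nrm : ℤ) := by
    intro i
    by_cases hex : ∃ m ∈ P.support, idx W m = i
    · obtain ⟨m, hm, rfl⟩ := hex
      rw [hfm m hm]; exact e.coeff_le m
    · have : f i = 0 := Finset.sum_eq_zero fun m hm => by
        rw [Finset.mem_filter] at hm
        exact absurd ⟨m, hm⟩ hex
      rw [this, abs_zero]; positivity
  have hev : e.evZ B ((B ^ W : ℕ) : ℤ) ((B ^ W ^ 2 : ℕ) : ℤ)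
      = ∑ i ∈ range (2 ^ k), f i * (B : ℤ) ^ i := by
    rw [← Ex.eval_poly, eval_eq', ← hP]
    simp only [f, Finset.sum_mul]
    rw [← Finset.sum_fiberwise_of_maps_to (t := range (2 ^ k)) (g := idx W)
      (fun m hm => mem_range.2 (hidx m hm))]
    refine sum_congr rfl fun i _ => sum_congr rfl fun m hm => ?_
    rw [Finset.mem_filter] at hm
    rw [← hm.2]
    simp [Fin.prod_univ_four, idx, ← pow_mul, ← pow_add, mul_assoc]
  have hh : ∀ i, 0 ≤ f i + (2 ^ s : ℤ) ∧ f i + (2 ^ s : ℤ) < (B : ℤ) := by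
    intro i
    have h1 := abs_le.1 (hfb i)
    have h2 : (e.nrm : ℤ) < 2 ^ s := by exact_mod_cast hn
    have h3 : (B : ℤ) = 2 * 2 ^ s := by rw [hBdef]; push_cast; ring
    constructor <;> linarith [h1.1, h1.2]
  let g : ℕ → ℕ := fun i => (f i + (2 ^ s : ℤ)).toNat
  have hgc : ∀ i, (g i : ℤ) = f i + 2 ^ s := fun i => Int.toNat_of_nonneg (hh i).1
  have hg : ∀ i, g i < B := fun i => by
    have := (hh i).2
    rw [← hgc] at this
    exact_mod_cast this
  have hT : (e.evZ B ((B ^ W : ℕ) : ℤ) ((B ^ W ^ 2 : ℕ) : ℤ) + ((2 ^ s * rep B k : ℕ) : ℤ))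
      = ((∑ i ∈ range (2 ^ k), g i * B ^ i : ℕ) : ℤ) := by
    rw [hev, rep_eq, Finset.mul_sum]
    push_cast
    rw [← sum_add_distrib]
    refine sum_congr rfl fun i _ => ?_
    rw [hgc]; ring
  rw [hT, Int.toNat_natCast] at hc
  have hall := check_sound (by rw [hBdef]; positivity) k g hg hc
  rw [← e.aeval_poly, aeval_def, eval₂_eq', ← hP]
  refine Finset.sum_nonneg fun m hm => mul_nonneg ?_ (Finset.prod_nonneg fun i _ => pow_nonneg (hx i) _)
  have h1 := hall (idx W m) (hidx m hm)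
  have h2 : ((2 ^ s : ℕ) : ℤ) ≤ (g (idx W m) : ℤ) := by exact_mod_cast h1
  rw [hgc, hfm m hm] at h2
  push_cast at h2
  have h4 : 0 ≤ coeff m P := by linarith
  simpa using (Int.cast_nonneg h4 : (0 : ℝ) ≤ _)

end Vale.Agent.P154.Four.Kron
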