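import Vale.Agent.P154.Four.OrbitDef

namespace Vale.Agent.P154.Four

set_option maxHeartbeats 1000000 in
-- symbolic orbit sum
lemma orb_t4 (a1 a2 a3 b1 b2 b3 : ℝ) :
    orb24 (fun x y z => (a1 * x + a2 * y + a3 * z) ^ 4) b1 b2 b3 =
      (let P := a1 ^ 2 + a2 ^ 2 + a3 ^ 2; let U := a1 * a2 * a3
       let K := a1 ^ 2 * a2 ^ 2 + a1 ^ 2 * a3 ^ 2 + a2 ^ 2 * a3 ^ 2
       let Q := b1 ^ 2 + b2 ^ 2 + b3 ^ 2; let V := b1 * b2 * b3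
       let L := b1 ^ 2 * b2 ^ 2 + b1 ^ 2 * b3 ^ 2 + b2 ^ 2 * b3 ^ 2
       (80 : ℝ) * K * L
      + (-(16) : ℝ) * K * Q ^ 2
      + (-(16) : ℝ) * P ^ 2 * L
      + (8 : ℝ) * P ^ 2 * Q ^ 2) := by
  unfold orb24 sgn4
  ring

set_option maxHeartbeats 1000000 in
-- symbolic orbit sum
lemma orb_t5 (a1 a2 a3 b1 b2 b3 : ℝ) :
    orb24 (fun x y z => (a1 * x + a2 * y + a3 * z) ^ 5) b1 b2 b3 =
      (let P := a1 ^ 2 + a2 ^ 2 + a3 ^ 2; let U := a1 * a2 * a3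
       let K := a1 ^ 2 * a2 ^ 2 + a1 ^ 2 * a3 ^ 2 + a2 ^ 2 * a3 ^ 2
       let Q := b1 ^ 2 + b2 ^ 2 + b3 ^ 2; let V := b1 * b2 * b3
       let L := b1 ^ 2 * b2 ^ 2 + b1 ^ 2 * b3 ^ 2 + b2 ^ 2 * b3 ^ 2
       (160 : ℝ) * P * U * Q * V) := by
  unfold orb24 sgn4
  ring

set_option maxHeartbeats 1000000 in
-- symbolic orbit sum
lemma orb_t6 (a1 a2 a3 b1 b2 b3 : ℝ) :
    orb24 (fun x y z => (a1 * x + a2 * y + a3 * z) ^ 6) b1 b2 b3 =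
      (let P := a1 ^ 2 + a2 ^ 2 + a3 ^ 2; let U := a1 * a2 * a3
       let K := a1 ^ 2 * a2 ^ 2 + a1 ^ 2 * a3 ^ 2 + a2 ^ 2 * a3 ^ 2
       let Q := b1 ^ 2 + b2 ^ 2 + b3 ^ 2; let V := b1 * b2 * b3
       let L := b1 ^ 2 * b2 ^ 2 + b1 ^ 2 * b3 ^ 2 + b2 ^ 2 * b3 ^ 2
       (2772 : ℝ) * U ^ 2 * V ^ 2
      + (-(252) : ℝ) * U ^ 2 * Q * L
      + (24 : ℝ) * U ^ 2 * Q ^ 3
      + (-(252) : ℝ) * P * K * V ^ 2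
      + (132 : ℝ) * P * K * Q * L
      + (-(24) : ℝ) * P * K * Q ^ 3
      + (24 : ℝ) * P ^ 3 * V ^ 2
      + (-(24) : ℝ) * P ^ 3 * Q * L
      + (8 : ℝ) * P ^ 3 * Q ^ 3) := by
  unfold orb24 sgn4
  ring

set_option maxHeartbeats 1000000 in
-- symbolic orbit sum
lemma orb_t7 (a1 a2 a3 b1 b2 b3 : ℝ) :
    orb24 (fun x y z => (a1 * x + a2 * y + a3 * z) ^ 7) b1 b2 b3 =
      (let P := a1 ^ 2 + a2 ^ 2 + a3 ^ 2; let U := a1 * a2 * a3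
       let K := a1 ^ 2 * a2 ^ 2 + a1 ^ 2 * a3 ^ 2 + a2 ^ 2 * a3 ^ 2
       let Q := b1 ^ 2 + b2 ^ 2 + b3 ^ 2; let V := b1 * b2 * b3
       let L := b1 ^ 2 * b2 ^ 2 + b1 ^ 2 * b3 ^ 2 + b2 ^ 2 * b3 ^ 2
       (2464 : ℝ) * U * K * V * L
      + (-(672) : ℝ) * U * K * Q ^ 2 * V
      + (-(672) : ℝ) * P ^ 2 * U * V * L
      + (336 : ℝ) * P ^ 2 * U * Q ^ 2 * V) := by
  unfold orb24 sgn4
  ring

set_option maxHeartbeats 1000000 in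
-- symbolic orbit sum
lemma orb_g0 (a1 a2 a3 b1 b2 b3 : ℝ) :
    orb24 (fun x y z => gW a1 a2 a3 x y z * (a1 * x + a2 * y + a3 * z) ^ 0) b1 b2 b3 =
      (let P := a1 ^ 2 + a2 ^ 2 + a3 ^ 2; let U := a1 * a2 * a3
       let K := a1 ^ 2 * a2 ^ 2 + a1 ^ 2 * a3 ^ 2 + a2 ^ 2 * a3 ^ 2
       let Q := b1 ^ 2 + b2 ^ 2 + b3 ^ 2; let V := b1 * b2 * b3
       let L := b1 ^ 2 * b2 ^ 2 + b1 ^ 2 * b3 ^ 2 + b2 ^ 2 * b3 ^ 2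
       (24 : ℝ) * Q
      + (24 : ℝ) * P
      + (16 : ℝ) * P * Q) := by
  unfold orb24 sgn4 gW
  ring

set_option maxHeartbeats 1000000 in
-- symbolic orbit sum
lemma orb_g1 (a1 a2 a3 b1 b2 b3 : ℝ) :
    orb24 (fun x y z => gW a1 a2 a3 x y z * (a1 * x + a2 * y + a3 * z) ^ 1) b1 b2 b3 =
      (let P := a1 ^ 2 + a2 ^ 2 + a3 ^ 2; let U := a1 * a2 * a3
       let K := a1 ^ 2 * a2 ^ 2 + a1 ^ 2 * a3 ^ 2 + a2 ^ 2 * a3 ^ 2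
       let Q := b1 ^ 2 + b2 ^ 2 + b3 ^ 2; let V := b1 * b2 * b3
       let L := b1 ^ 2 * b2 ^ 2 + b1 ^ 2 * b3 ^ 2 + b2 ^ 2 * b3 ^ 2
       (144 : ℝ) * U * V
      + (96 : ℝ) * U * Q
      + (96 : ℝ) * P * V
      + (16 : ℝ) * P * Q) := by
  unfold orb24 sgn4 gW
  ring

set_option maxHeartbeats 1000000 in
-- symbolic orbit sum
lemma orb_g2 (a1 a2 a3 b1 b2 b3 : ℝ) :
    orb24 (fun x y z => gW a1 a2 a3 x y z * (a1 * x + a2 * y + a3 * z) ^ 2) b1 b2 b3 =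
      (let P := a1 ^ 2 + a2 ^ 2 + a3 ^ 2; let U := a1 * a2 * a3
       let K := a1 ^ 2 * a2 ^ 2 + a1 ^ 2 * a3 ^ 2 + a2 ^ 2 * a3 ^ 2
       let Q := b1 ^ 2 + b2 ^ 2 + b3 ^ 2; let V := b1 * b2 * b3
       let L := b1 ^ 2 * b2 ^ 2 + b1 ^ 2 * b3 ^ 2 + b2 ^ 2 * b3 ^ 2
       (-(16) : ℝ) * K * L
      + (192 : ℝ) * K * V
      + (16 : ℝ) * K * Q ^ 2
      + (192 : ℝ) * U * L
      + (288 : ℝ) * U * V
      + (8 : ℝ) * P * Q ^ 2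
      + (16 : ℝ) * P ^ 2 * L
      + (8 : ℝ) * P ^ 2 * Q) := by
  unfold orb24 sgn4 gW
  ring

set_option maxHeartbeats 1000000 in
-- symbolic orbit sum
lemma orb_g3 (a1 a2 a3 b1 b2 b3 : ℝ) :
    orb24 (fun x y z => gW a1 a2 a3 x y z * (a1 * x + a2 * y + a3 * z) ^ 3) b1 b2 b3 =
      (let P := a1 ^ 2 + a2 ^ 2 + a3 ^ 2; let U := a1 * a2 * a3
       let K := a1 ^ 2 * a2 ^ 2 + a1 ^ 2 * a3 ^ 2 + a2 ^ 2 * a3 ^ 2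
       let Q := b1 ^ 2 + b2 ^ 2 + b3 ^ 2; let V := b1 * b2 * b3
       let L := b1 ^ 2 * b2 ^ 2 + b1 ^ 2 * b3 ^ 2 + b2 ^ 2 * b3 ^ 2
       (160 : ℝ) * K * L
      + (128 : ℝ) * K * Q * V
      + (-(32) : ℝ) * K * Q ^ 2
      + (144 : ℝ) * U * Q * V
      + (128 : ℝ) * P * U * L
      + (144 : ℝ) * P * U * V
      + (208 : ℝ) * P * U * Q * V
      + (32 : ℝ) * P * U * Q ^ 2
      + (-(32) : ℝ) * P ^ 2 * L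
      + (32 : ℝ) * P ^ 2 * Q * V
      + (16 : ℝ) * P ^ 2 * Q ^ 2) := by
  unfold orb24 sgn4 gW
  ring

set_option maxHeartbeats 1000000 in
-- symbolic orbit sum
lemma orb_g4 (a1 a2 a3 b1 b2 b3 : ℝ) :
    orb24 (fun x y z => gW a1 a2 a3 x y z * (a1 * x + a2 * y + a3 * z) ^ 4) b1 b2 b3 =
      (let P := a1 ^ 2 + a2 ^ 2 + a3 ^ 2; let U := a1 * a2 * a3
       let K := a1 ^ 2 * a2 ^ 2 + a1 ^ 2 * a3 ^ 2 + a2 ^ 2 * a3 ^ 2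
       let Q := b1 ^ 2 + b2 ^ 2 + b3 ^ 2; let V := b1 * b2 * b3
       let L := b1 ^ 2 * b2 ^ 2 + b1 ^ 2 * b3 ^ 2 + b2 ^ 2 * b3 ^ 2
       (80 : ℝ) * K * Q * L
      + (-(16) : ℝ) * K * Q ^ 3
      + (1260 : ℝ) * U ^ 2 * V ^ 2
      + (60 : ℝ) * U ^ 2 * Q * L
      + (768 : ℝ) * U ^ 2 * Q * V
      + (-(24) : ℝ) * U ^ 2 * Q ^ 3
      + (80 : ℝ) * P * K * L
      + (60 : ℝ) * P * K * V ^ 2
      + (12 : ℝ) * P * K * Q * L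
      + (128 : ℝ) * P * K * Q * V
      + (-(16) : ℝ) * P * K * Q ^ 2
      + (8 : ℝ) * P * K * Q ^ 3
      + (768 : ℝ) * P * U * V ^ 2
      + (128 : ℝ) * P * U * Q * L
      + (320 : ℝ) * P * U * Q * V
      + (-(16) : ℝ) * P ^ 2 * Q * L
      + (8 : ℝ) * P ^ 2 * Q ^ 3
      + (-(16) : ℝ) * P ^ 3 * L
      + (-(24) : ℝ) * P ^ 3 * V ^ 2
      + (8 : ℝ) * P ^ 3 * Q * L
      + (8 : ℝ) * P ^ 3 * Q ^ 2) := by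
  unfold orb24 sgn4 gW
  ring

set_option maxHeartbeats 1000000 in
-- symbolic orbit sum
lemma orb_g5 (a1 a2 a3 b1 b2 b3 : ℝ) :
    orb24 (fun x y z => gW a1 a2 a3 x y z * (a1 * x + a2 * y + a3 * z) ^ 5) b1 b2 b3 =
      (let P := a1 ^ 2 + a2 ^ 2 + a3 ^ 2; let U := a1 * a2 * a3
       let K := a1 ^ 2 * a2 ^ 2 + a1 ^ 2 * a3 ^ 2 + a2 ^ 2 * a3 ^ 2
       let Q := b1 ^ 2 + b2 ^ 2 + b3 ^ 2; let V := b1 * b2 * b3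
       let L := b1 ^ 2 * b2 ^ 2 + b1 ^ 2 * b3 ^ 2 + b2 ^ 2 * b3 ^ 2
       (544 : ℝ) * U * K * V * L
      + (2688 : ℝ) * U * K * V ^ 2
      + (192 : ℝ) * U * K * Q * L
      + (-(32) : ℝ) * U * K * Q ^ 2 * V
      + (-(64) : ℝ) * U * K * Q ^ 3
      + (2688 : ℝ) * U ^ 2 * V * L
      + (5544 : ℝ) * U ^ 2 * V ^ 2
      + (-(504) : ℝ) * U ^ 2 * Q * L
      + (-(384) : ℝ) * U ^ 2 * Q ^ 2 * V
      + (48 : ℝ) * U ^ 2 * Q ^ 3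
      + (192 : ℝ) * P * K * V * L
      + (-(504) : ℝ) * P * K * V ^ 2
      + (264 : ℝ) * P * K * Q * L
      + (64 : ℝ) * P * K * Q ^ 2 * V
      + (-(48) : ℝ) * P * K * Q ^ 3
      + (160 : ℝ) * P * U * Q ^ 2 * V
      + (-(32) : ℝ) * P ^ 2 * U * V * L
      + (-(384) : ℝ) * P ^ 2 * U * V ^ 2
      + (64 : ℝ) * P ^ 2 * U * Q * L
      + (160 : ℝ) * P ^ 2 * U * Q * V
      + (176 : ℝ) * P ^ 2 * U * Q ^ 2 * V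
      + (32 : ℝ) * P ^ 2 * U * Q ^ 3
      + (-(64) : ℝ) * P ^ 3 * V * L
      + (48 : ℝ) * P ^ 3 * V ^ 2
      + (-(48) : ℝ) * P ^ 3 * Q * L
      + (32 : ℝ) * P ^ 3 * Q ^ 2 * V
      + (16 : ℝ) * P ^ 3 * Q ^ 3) := by
  unfold orb24 sgn4 gW
  ring

end Vale.Agent.P154.Four
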