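import Vale.Agent.P154.Four.CertD
import Vale.Agent.P154.Four.OrbitParts

namespace Vale.Agent.P154.Four

lemma orb24_lin (f4 f5 f6 f7 g0 g1 g2 g3 g4 g5 : ℝ → ℝ → ℝ → ℝ) (b1 b2 b3 : ℝ) :
    orb24 (fun x y z => 9 / 16 * f4 x y z + 3 / 16 * f5 x y z - 5 / 16 * f6 x y z
      + 1 / 16 * f7 x y z + 1 / 3 * (g0 x y z - g1 x y z + g2 x y z - g3 x y z
      + 7 / 16 * g4 x y z - 1 / 16 * g5 x y z)) b1 b2 b3
      = 9 / 16 * orb24 f4 b1 b2 b3 + 3 / 16 * orb24 f5 b1 b2 b3 - 5 / 16 * orb24 f6 b1 b2 b3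
        + 1 / 16 * orb24 f7 b1 b2 b3 + 1 / 3 * (orb24 g0 b1 b2 b3 - orb24 g1 b1 b2 b3
        + orb24 g2 b1 b2 b3 - orb24 g3 b1 b2 b3 + 7 / 16 * orb24 g4 b1 b2 b3
        - 1 / 16 * orb24 g5 b1 b2 b3) := by
  unfold orb24 sgn4; ring

/-- The orbit sum of the term bound. -/
lemma orbit_avg (a1 a2 a3 b1 b2 b3 : ℝ) :
    orb24 (termW a1 a2 a3) b1 b2 b3 = 24 * tP (a1 ^ 2 + a2 ^ 2 + a3 ^ 2) (a1 * a2 * a3)
      (a1 ^ 2 * a2 ^ 2 + a1 ^ 2 * a3 ^ 2 + a2 ^ 2 * a3 ^ 2) (b1 ^ 2 + b2 ^ 2 + b3 ^ 2)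
      (b1 * b2 * b3) (b1 ^ 2 * b2 ^ 2 + b1 ^ 2 * b3 ^ 2 + b2 ^ 2 * b3 ^ 2) := by
  have e : termW a1 a2 a3 = fun x y z =>
      9 / 16 * (a1 * x + a2 * y + a3 * z) ^ 4 + 3 / 16 * (a1 * x + a2 * y + a3 * z) ^ 5
      - 5 / 16 * (a1 * x + a2 * y + a3 * z) ^ 6 + 1 / 16 * (a1 * x + a2 * y + a3 * z) ^ 7
      + 1 / 3 * (gW a1 a2 a3 x y z * (a1 * x + a2 * y + a3 * z) ^ 0
        - gW a1 a2 a3 x y z * (a1 * x + a2 * y + a3 * z) ^ 1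
        + gW a1 a2 a3 x y z * (a1 * x + a2 * y + a3 * z) ^ 2
        - gW a1 a2 a3 x y z * (a1 * x + a2 * y + a3 * z) ^ 3
        + 7 / 16 * (gW a1 a2 a3 x y z * (a1 * x + a2 * y + a3 * z) ^ 4)
        - 1 / 16 * (gW a1 a2 a3 x y z * (a1 * x + a2 * y + a3 * z) ^ 5)) := by
    funext x y z
    simp only [termW, mW, lowL]
    generalize gW a1 a2 a3 x y z = g
    generalize a1 * x + a2 * y + a3 * z = t
    ring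
  rw [e, orb24_lin, orb_t4, orb_t5, orb_t6, orb_t7, orb_g0, orb_g1, orb_g2, orb_g3, orb_g4, orb_g5]
  simp only [tP]
  ring

end Vale.Agent.P154.Four
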