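import Mathlib

namespace Vale.Agent.P154.Four

/-- Sum over the four sign patterns with product one. -/
def sgn4 (f : ℝ → ℝ → ℝ → ℝ) (b1 b2 b3 : ℝ) : ℝ :=
  f b1 b2 b3 + f b1 (-b2) (-b3) + f (-b1) b2 (-b3) + f (-b1) (-b2) b3

/-- Sum over the twenty-four signed coordinate permutations. -/
def orb24 (f : ℝ → ℝ → ℝ → ℝ) (b1 b2 b3 : ℝ) : ℝ :=
  sgn4 f b1 b2 b3 + sgn4 f b1 b3 b2 + sgn4 f b2 b1 b3 + sgn4 f b2 b3 b1 + sgn4 f b3 b1 b2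
    + sgn4 f b3 b2 b1

/-- Mean weight of the product. -/
def mW (a1 a2 a3 b1 b2 b3 : ℝ) : ℝ := 1 + (a1 * b1 + a2 * b2 + a3 * b3)

/-- Squared Walsh length of the product. -/
def gW (a1 a2 a3 b1 b2 b3 : ℝ) : ℝ :=
  (a1 + b1 + a2 * b3 + a3 * b2) ^ 2 + (a2 + b2 + a1 * b3 + a3 * b1) ^ 2
    + (a3 + b3 + a1 * b2 + a2 * b1) ^ 2

/-- Polynomial lower bound of 1 / (1 + t). -/
noncomputable def lowL (t : ℝ) : ℝ :=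
  1 - t + t ^ 2 - t ^ 3 + 7 / 16 * t ^ 4 - 1 / 16 * t ^ 5

/-- Upper bound of one orbit term. -/
noncomputable def termW (a1 a2 a3 b1 b2 b3 : ℝ) : ℝ :=
  mW a1 a2 a3 b1 b2 b3 - (mW a1 a2 a3 b1 b2 b3 ^ 2 - gW a1 a2 a3 b1 b2 b3 / 3)
    * lowL (a1 * b1 + a2 * b2 + a3 * b3)

end Vale.Agent.P154.Four
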