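import Vale.Agent.P154.Four.Orbit
import Vale.Agent.P154.Four.GapBound
import Vale.Agent.P154.Q.Defs

namespace Vale.Agent.P154.Four

open Vale.Agent.P154.Q

/-- First Walsh coordinate. -/
def A1 (y : Fin 4 → ℝ) : ℝ := y 0 + y 1 - y 2 - y 3

/-- Second Walsh coordinate. -/
def A2 (y : Fin 4 → ℝ) : ℝ := y 0 - y 1 + y 2 - y 3

/-- Third Walsh coordinate. -/
def A3 (y : Fin 4 → ℝ) : ℝ := y 0 - y 1 - y 2 + y 3

/-- Translations of the four labels. -/
def trl : Fin 4 → Equiv.Perm (Fin 4) :=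
  ![1, Equiv.swap 0 1 * Equiv.swap 2 3, Equiv.swap 0 2 * Equiv.swap 1 3,
    Equiv.swap 0 3 * Equiv.swap 1 2]

/-- Relabellings fixing the first label. -/
def fix6 : Fin 6 → Equiv.Perm (Fin 4) :=
  ![1, Equiv.swap 1 2, Equiv.swap 1 3, Equiv.swap 2 3,
    Equiv.swap 1 2 * Equiv.swap 2 3, Equiv.swap 2 3 * Equiv.swap 1 2]

lemma trl_fix_bij : Function.Bijective (fun p : Fin 4 × Fin 6 => trl p.1 * fix6 p.2) := by
  rw [Fintype.bijective_iff_injective_and_card]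
  refine ⟨?_, by simp [Fintype.card_perm, Nat.factorial]⟩
  intro p q h
  revert h
  revert p q
  decide

/-- Six permutations of the coordinates. -/
def six (F : ℝ → ℝ → ℝ → ℝ) (b1 b2 b3 : ℝ) : ℝ :=
  F b1 b2 b3 + F b2 b1 b3 + F b3 b2 b1 + F b1 b3 b2 + F b2 b3 b1 + F b3 b1 b2

lemma sum_fix (F : ℝ → ℝ → ℝ → ℝ) (y : Fin 4 → ℝ) :
    ∑ r, F (A1 fun i => y (fix6 r i)) (A2 fun i => y (fix6 r i)) (A3 fun i => y (fix6 r i))
      = six F (A1 y) (A2 y) (A3 y) := by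
  rw [Fin.sum_univ_six]
  simp only [six, A1, A2, A3, fix6, Matrix.cons_val_zero, Matrix.cons_val_one, Matrix.cons_val,
    Equiv.Perm.coe_one, id_eq, Equiv.Perm.coe_mul, Function.comp_apply, Equiv.swap_apply_def,
    Fin.reduceEq, ↓reduceIte]
  ring_nf

lemma trl_vals (y : Fin 4 → ℝ) :
    (A1 (fun i => y (trl 1 i)) = A1 y ∧ A2 (fun i => y (trl 1 i)) = -A2 y ∧
      A3 (fun i => y (trl 1 i)) = -A3 y) ∧
    (A1 (fun i => y (trl 2 i)) = -A1 y ∧ A2 (fun i => y (trl 2 i)) = A2 y ∧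
      A3 (fun i => y (trl 2 i)) = -A3 y) ∧
    (A1 (fun i => y (trl 3 i)) = -A1 y ∧ A2 (fun i => y (trl 3 i)) = -A2 y ∧
      A3 (fun i => y (trl 3 i)) = A3 y) := by
  simp only [A1, A2, A3, trl, Matrix.cons_val_zero, Matrix.cons_val_one, Matrix.cons_val,
    Equiv.Perm.coe_mul, Function.comp_apply, Equiv.swap_apply_def, Fin.reduceEq, ↓reduceIte]
  refine ⟨⟨?_, ?_, ?_⟩, ⟨?_, ?_, ?_⟩, ⟨?_, ?_, ?_⟩⟩ <;> ring

lemma sum_perm (F : ℝ → ℝ → ℝ → ℝ) (y : Fin 4 → ℝ) :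
    ∑ s : Equiv.Perm (Fin 4), F (A1 fun i => y (s i)) (A2 fun i => y (s i)) (A3 fun i => y (s i))
      = orb24 F (A1 y) (A2 y) (A3 y) := by
  rw [← Fintype.sum_bijective _ trl_fix_bij _ _ (fun p => rfl), Fintype.sum_prod_type]
  have e : ∀ t, ∑ r, F (A1 fun i => y ((trl t * fix6 r) i)) (A2 fun i => y ((trl t * fix6 r) i))
      (A3 fun i => y ((trl t * fix6 r) i))
      = six F (A1 fun i => y (trl t i)) (A2 fun i => y (trl t i)) (A3 fun i => y (trl t i)) :=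
    fun t => sum_fix F (fun i => y (trl t i))
  simp only [e, Fin.sum_univ_four]
  obtain ⟨⟨a1, a2, a3⟩, ⟨b1, b2, b3⟩, c1, c2, c3⟩ := trl_vals y
  rw [a1, a2, a3, b1, b2, b3, c1, c2, c3]
  simp only [trl, Matrix.cons_val_zero, Equiv.Perm.coe_one, id_eq]
  unfold six orb24 sgn4
  ring

lemma mass4 (x : Fin 4 → ℝ) : mass x = x 0 + x 1 + x 2 + x 3 := by
  simp [mass, Fin.sum_univ_four]

lemma dom_of {p : Fin 4 → ℝ} (hp : ∀ i, 0 ≤ p i) (hs : mass p = 1) :
    Dom (A1 p ^ 2 + A2 p ^ 2 + A3 p ^ 2) (A1 p * A2 p * A3 p)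
      (A1 p ^ 2 * A2 p ^ 2 + A1 p ^ 2 * A3 p ^ 2 + A2 p ^ 2 * A3 p ^ 2) := by
  rw [mass4] at hs
  have h3 : p 3 = 1 - p 0 - p 1 - p 2 := by linarith
  have n0 := hp 0
  have n1 := hp 1
  have n2 := hp 2
  have n3 := hp 3
  refine ⟨by positivity, ?_, by positivity, ?_, ?_, ?_, ?_, ?_, ?_⟩
  · have hsum : (p 0 + p 1 + p 2 + p 3) ^ 2 = 1 := by rw [hs]; norm_num
    have hid : A1 p ^ 2 + A2 p ^ 2 + A3 p ^ 2
        = 3 * (p 0 + p 1 + p 2 + p 3) ^ 2 - 8 * (p 0 * p 1 + p 0 * p 2 + p 0 * p 3 + p 1 * p 2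
          + p 1 * p 3 + p 2 * p 3) := by unfold A1 A2 A3; ring
    rw [hid, hsum]
    nlinarith [mul_nonneg n0 n1, mul_nonneg n0 n2, mul_nonneg n0 n3, mul_nonneg n1 n2,
      mul_nonneg n1 n3, mul_nonneg n2 n3]
  · nlinarith [sq_nonneg (A1 p ^ 2 - A2 p ^ 2), sq_nonneg (A1 p ^ 2 - A3 p ^ 2),
      sq_nonneg (A2 p ^ 2 - A3 p ^ 2)]
  · refine le_of_le_of_eq (show (0 : ℝ) ≤ 256 * (p 0 * p 1 * p 2 * p 3) by positivity) ?_
    simp only [A1, A2, A3]
    rw [h3]; ring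
  · refine le_of_le_of_eq (show (0 : ℝ) ≤ 16 * (p 0 * p 1 * p 2 + p 0 * p 1 * p 3
      + p 0 * p 2 * p 3 + p 1 * p 2 * p 3) by positivity) ?_
    simp only [A1, A2, A3]
    rw [h3]; ring
  · nlinarith [mul_nonneg (sq_nonneg (A3 p)) (sq_nonneg (A1 p ^ 2 - A2 p ^ 2)),
      mul_nonneg (sq_nonneg (A1 p)) (sq_nonneg (A2 p ^ 2 - A3 p ^ 2)),
      mul_nonneg (sq_nonneg (A2 p)) (sq_nonneg (A3 p ^ 2 - A1 p ^ 2))]
  · have amgm : ∀ {x y z : ℝ}, 0 ≤ x → 0 ≤ y → 0 ≤ z → 0 ≤ (x + y + z) ^ 3 - 27 * (x * y * z) := by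
      intro x y z hx hy hz
      nlinarith [mul_nonneg hx (sq_nonneg (y - z)), mul_nonneg hy (sq_nonneg (z - x)),
        mul_nonneg hz (sq_nonneg (x - y)),
        mul_nonneg (add_nonneg (add_nonneg hx hy) hz) (sq_nonneg (x - y)),
        mul_nonneg (add_nonneg (add_nonneg hx hy) hz) (sq_nonneg (y - z)),
        mul_nonneg (add_nonneg (add_nonneg hx hy) hz) (sq_nonneg (z - x))]
    refine le_of_le_of_eq (amgm (sq_nonneg (A1 p)) (sq_nonneg (A2 p)) (sq_nonneg (A3 p))) ?_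
    ring
  · nlinarith [sq_nonneg (A1 p ^ 2 * A2 p ^ 2 - A2 p ^ 2 * A3 p ^ 2),
      sq_nonneg (A2 p ^ 2 * A3 p ^ 2 - A1 p ^ 2 * A3 p ^ 2),
      sq_nonneg (A1 p ^ 2 * A3 p ^ 2 - A1 p ^ 2 * A2 p ^ 2)]

/-- Quadratic invariant. -/
def iP (p : Fin 4 → ℝ) : ℝ := A1 p ^ 2 + A2 p ^ 2 + A3 p ^ 2

/-- Cubic invariant. -/
def iU (p : Fin 4 → ℝ) : ℝ := A1 p * A2 p * A3 p

/-- Quartic invariant. -/
def iK (p : Fin 4 → ℝ) : ℝ := A1 p ^ 2 * A2 p ^ 2 + A1 p ^ 2 * A3 p ^ 2 + A2 p ^ 2 * A3 p ^ 2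

lemma sV_norm {p : Fin 4 → ℝ} (hs : mass p = 1) : sV p = iP p / 3 := by
  have h := hs
  rw [mass4] at h
  have h3 : p 3 = 1 - p 0 - p 1 - p 2 := by linarith
  simp only [sV, hs, iP, A1, A2, A3, Fin.sum_univ_four, div_one]
  push_cast
  rw [h3]; ring

lemma phi_le {p : Fin 4 → ℝ} (hp : ∀ i, 0 ≤ p i) (hs : mass p = 1) :
    phiP (iP p) (iU p) (iK p) ≤ hB p - sV p := by
  set u := fun i => Real.sqrt (p i) with hu
  have hsq : ∀ i, u i ^ 2 = p i := fun i => Real.sq_sqrt (hp i)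
  have h := gap_nonneg4 u (fun i => Real.sqrt_nonneg _)
  have hm := hs
  rw [mass4] at hm
  have hB4 : hB p = 1 - ((u 0 + u 1 + u 2 + u 3) ^ 2 - 1) / 3 := by
    have e : ∀ i j, Real.sqrt (p i * p j) = u i * u j := fun i j => Real.sqrt_mul (hp i) _
    simp only [hB, hs, e]
    have : ∀ i, ∑ j ∈ Finset.univ.erase i, u i * u j = u i * (∑ j, u j) - p i := by
      intro i
      rw [Finset.sum_erase_eq_sub (Finset.mem_univ i), ← Finset.mul_sum, ← hsq i, sq]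
    simp only [this, Fin.sum_univ_four]
    push_cast
    have : p 0 + p 1 + p 2 + p 3 = 1 := hm
    linear_combination (1 / 3 : ℝ) * this
  have e4 : ∀ i, u i ^ 4 = p i ^ 2 := fun i => by rw [← hsq i]; ring
  simp only [gapR, hsq, e4, hm, one_pow, mul_one] at h
  have hw : wp (p 0) (p 1) (p 2) (p 3) = iP p := rfl
  have hwu : wu (p 0) (p 1) (p 2) (p 3) = iU p := rfl
  have hwk : wk (p 0) (p 1) (p 2) (p 3) = iK p := rfl
  rw [hw, hwu, hwk] at h
  rw [hB4, sV_norm hs]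
  have h2 : iP p = 4 * (p 0 ^ 2 + p 1 ^ 2 + p 2 ^ 2 + p 3 ^ 2) - 1 := by
    have h3 : p 3 = 1 - p 0 - p 1 - p 2 := by linarith
    simp only [iP, A1, A2, A3]; rw [h3]; ring
  simp only [phiP]
  nlinarith [h, h2]

lemma q_bounds {p : Fin 4 → ℝ} (hp : ∀ i, 0 ≤ p i) (hs : mass p = 1) :
    iP p / 4 ≤ qP (iP p) (iU p) (iK p) ∧ qP (iP p) (iU p) (iK p) ≤ 1 := by
  have hu := up_nonneg4 p hp
  have hl := lo_nonneg4 p hp
  rw [mass4] at hs
  simp only [upR, loR, hs, one_pow, mul_one] at hu hl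
  have hw : wp (p 0) (p 1) (p 2) (p 3) = iP p := rfl
  have hwu : wu (p 0) (p 1) (p 2) (p 3) = iU p := rfl
  have hwk : wk (p 0) (p 1) (p 2) (p 3) = iK p := rfl
  rw [hw, hwu, hwk] at hu hl
  simp only [qP]
  constructor <;> linarith

lemma term_bound {a b : Fin 4 → ℝ} (ha : ∀ i, 0 ≤ a i) (hb : ∀ i, 0 ≤ b i) (hsa : mass a = 1)
    (hsb : mass b = 1) :
    4 * sV (fun i => a i * b i) ≤ termW (A1 a) (A2 a) (A3 a) (A1 b) (A2 b) (A3 b) := by
  set z := fun i => a i * b i with hz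
  have hz0 : ∀ i, 0 ≤ z i := fun i => mul_nonneg (ha i) (hb i)
  rw [mass4] at hsa hsb
  have ea : a 3 = 1 - a 0 - a 1 - a 2 := by linarith
  have eb : b 3 = 1 - b 0 - b 1 - b 2 := by linarith
  set t := A1 a * A1 b + A2 a * A2 b + A3 a * A3 b with ht
  set g := gW (A1 a) (A2 a) (A3 a) (A1 b) (A2 b) (A3 b) with hg
  have em : 4 * mass z = 1 + t := by
    rw [ht, mass4]; simp only [hz, A1, A2, A3]; rw [ea, eb]; ring
  have eg : g = 16 * (4 * (∑ i, z i ^ 2) - mass z ^ 2) := by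
    rw [hg, mass4, Fin.sum_univ_four]; simp only [hz, gW, A1, A2, A3]; rw [ea, eb]; ring
  have hE : 0 ≤ (1 + t) ^ 2 - g / 3 := by
    rw [← em, eg, mass4, Fin.sum_univ_four]
    nlinarith [mul_nonneg (hz0 0) (hz0 1), mul_nonneg (hz0 0) (hz0 2), mul_nonneg (hz0 0) (hz0 3),
      mul_nonneg (hz0 1) (hz0 2), mul_nonneg (hz0 1) (hz0 3), mul_nonneg (hz0 2) (hz0 3)]
  have hterm : termW (A1 a) (A2 a) (A3 a) (A1 b) (A2 b) (A3 b)
      = (1 + t) - ((1 + t) ^ 2 - g / 3) * lowL t := by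
    simp only [termW, mW, ← hg, ← ht]
  have h1t : 0 ≤ 1 + t := by
    rw [← em, mass4]; linarith [hz0 0, hz0 1, hz0 2, hz0 3]
  rcases h1t.eq_or_lt with h0 | h0
  · have hm0 : mass z = 0 := by linarith
    have hall : ∀ i, z i = 0 := by
      intro i
      have := hz0 0; have := hz0 1; have := hz0 2; have := hz0 3
      rw [mass4] at hm0
      fin_cases i <;> simp <;> linarith
    have hg0 : g = 0 := by rw [eg, hm0]; simp [hall]
    rw [hterm, ← h0, hg0]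
    simp [sV, hm0, hall]
  · have hval : 4 * sV z = g / (3 * (1 + t)) := by
      have hmz : mass z ≠ 0 := by intro hh; rw [hh] at em; linarith
      rw [eg, ← em, sV]
      push_cast
      field_simp
      ring
    rw [hval, hterm, div_le_iff₀ (by linarith)]
    have key : ((1 + t) - ((1 + t) ^ 2 - g / 3) * lowL t) * (3 * (1 + t))
        = g + 3 * ((1 + t) ^ 2 - g / 3) * (t ^ 4 * (t - 3) ^ 2 / 16) := by
      simp only [lowL]; ring
    rw [key]
    have : 0 ≤ 3 * ((1 + t) ^ 2 - g / 3) * (t ^ 4 * (t - 3) ^ 2 / 16) := by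
      apply mul_nonneg (by linarith)
      positivity
    linarith

lemma pair_norm {a b : Fin 4 → ℝ} (ha : ∀ i, 0 ≤ a i) (hb : ∀ i, 0 ≤ b i) (hsa : mass a = 1)
    (hsb : mass b = 1) :
    (4 : ℝ) * orbAvg sV a b ≤ sV a + sV b + (hB a - sV a) * qP (iP b) (iU b) (iK b)
      + qP (iP a) (iU a) (iK a) * (hB b - sV b) := by
  have hperm : ∀ s : Equiv.Perm (Fin 4), mass (fun i => b (s i)) = 1 := fun s => by
    unfold mass at *; rw [Equiv.sum_comp s b]; exact hsb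
  have h1 : ∑ s : Equiv.Perm (Fin 4), 4 * sV (fun i => a i * b (s i))
      ≤ 24 * tP (iP a) (iU a) (iK a) (iP b) (iU b) (iK b) := by
    refine (Finset.sum_le_sum fun s _ => term_bound ha (fun i => hb (s i)) hsa (hperm s)).trans
      (le_of_eq ?_)
    rw [sum_perm (termW (A1 a) (A2 a) (A3 a)) b, orbit_avg]
    rfl
  have h2 : tP (iP a) (iU a) (iK a) (iP b) (iU b) (iK b) ≤ iP a / 3 + iP b / 3
      + phiP (iP a) (iU a) (iK a) * qP (iP b) (iU b) (iK b)
      + qP (iP a) (iU a) (iK a) * phiP (iP b) (iU b) (iK b) :=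
    pair_poly (dom_of ha hsa) (dom_of hb hsb)
  obtain ⟨la, ua⟩ := q_bounds ha hsa
  obtain ⟨lb, ub⟩ := q_bounds hb hsb
  have pa : 0 ≤ qP (iP a) (iU a) (iK a) := le_trans (by unfold iP; positivity) la
  have pb : 0 ≤ qP (iP b) (iU b) (iK b) := le_trans (by unfold iP; positivity) lb
  have m1 := mul_le_mul_of_nonneg_right (phi_le ha hsa) pb
  have m2 := mul_le_mul_of_nonneg_left (phi_le hb hsb) pa
  rw [← Finset.mul_sum] at h1
  have h24 : (Nat.factorial 4 : ℝ) = 24 := by norm_num [Nat.factorial]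
  rw [orbAvg, h24, sV_norm hsa, sV_norm hsb]
  rw [sV_norm hsa] at m1
  rw [sV_norm hsb] at m2
  linarith

/-- The multiplier on likelihood vectors. -/
noncomputable def qf4 (x : Fin 4 → ℝ) : ℝ :=
  mass x * qP (iP fun i => (mass x)⁻¹ * x i) (iU fun i => (mass x)⁻¹ * x i)
    (iK fun i => (mass x)⁻¹ * x i)

lemma mass_scale (c : ℝ) (x : Fin 4 → ℝ) : mass (fun i => c * x i) = c * mass x :=
  (Finset.mul_sum _ _ _).symm

lemma sV_scale (c : ℝ) (x : Fin 4 → ℝ) : sV (fun i => c * x i) = c * sV x := by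
  simp only [sV, mass_scale, mul_pow, ← Finset.mul_sum]
  rcases eq_or_ne c 0 with rfl | hc
  · simp
  · rcases eq_or_ne (mass x) 0 with hm | hm
    · simp [hm]
    · field_simp

lemma hB_scale {c : ℝ} (hc : 0 ≤ c) (x : Fin 4 → ℝ) : hB (fun i => c * x i) = c * hB x := by
  have e : ∀ i j, Real.sqrt (c * x i * (c * x j)) = c * Real.sqrt (x i * x j) := by
    intro i j
    rw [show c * x i * (c * x j) = c ^ 2 * (x i * x j) by ring, Real.sqrt_mul (sq_nonneg c),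
      Real.sqrt_sq hc]
  simp only [hB, mass_scale, e, ← Finset.mul_sum]
  ring

lemma orbAvg_scale (c d : ℝ) (x y : Fin 4 → ℝ) :
    orbAvg sV (fun i => c * x i) (fun i => d * y i) = c * d * orbAvg sV x y := by
  have e : ∀ s : Equiv.Perm (Fin 4), sV (fun i => c * x i * (d * y (s i)))
      = c * d * sV (fun i => x i * y (s i)) := by
    intro s
    rw [← sV_scale (c * d)]
    congr 1; funext i; ring
  simp only [orbAvg, e, ← Finset.mul_sum]
  ring

lemma zero_of_mass {x : Fin 4 → ℝ} (hx : ∀ i, 0 ≤ x i) (h : mass x = 0) : x = 0 := by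
  funext i
  exact (Finset.sum_eq_zero_iff_of_nonneg fun i _ => hx i).1 h i (Finset.mem_univ i)

/-- The pointwise pair inequality for four states. -/
theorem pairCert_four : PairCert 4 := by
  refine ⟨qf4, 3 / 4, by norm_num, ?_, ?_⟩
  · intro x hx
    have hnn : 0 ≤ mass x := Finset.sum_nonneg fun i _ => hx i
    rcases hnn.eq_or_lt with h | h
    · have := zero_of_mass hx h.symm
      subst this
      simp [qf4, sV, mass]
    · set p := fun i => (mass x)⁻¹ * x i with hp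
      have hs : mass p = 1 := by rw [hp, mass_scale, inv_mul_cancel₀ h.ne']
      obtain ⟨l1, l2⟩ := q_bounds (fun i => mul_nonneg (inv_nonneg.2 h.le) (hx i)) hs
      have e : sV p = (mass x)⁻¹ * sV x := sV_scale _ _
      rw [sV_norm hs] at e
      have e2 : sV x = mass x * (iP p / 3) := by rw [e]; field_simp
      constructor
      · rw [e2, qf4]
        change 3 / 4 * (mass x * (iP p / 3)) ≤ mass x * qP (iP p) (iU p) (iK p)
        nlinarith
      · exact (mul_le_mul_of_nonneg_left l2 h.le).trans (le_of_eq (mul_one _))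
  · intro x y hx hy
    push_cast
    have hnn : 0 ≤ mass x := Finset.sum_nonneg fun i _ => hx i
    rcases hnn.eq_or_lt with h | h
    · have := zero_of_mass hx h.symm
      subst this
      simp [orbAvg, qf4, sV, mass, hB]
    have hnn' : 0 ≤ mass y := Finset.sum_nonneg fun i _ => hy i
    rcases hnn'.eq_or_lt with h' | h'
    · have := zero_of_mass hy h'.symm
      subst this
      simp [orbAvg, qf4, sV, mass, hB]
    set a := fun i => (mass x)⁻¹ * x i with ha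
    set b := fun i => (mass y)⁻¹ * y i with hb
    have key := pair_norm (a := a) (b := b) (fun i => mul_nonneg (inv_nonneg.2 h.le) (hx i))
      (fun i => mul_nonneg (inv_nonneg.2 h'.le) (hy i))
      (by rw [ha, mass_scale, inv_mul_cancel₀ h.ne'])
      (by rw [hb, mass_scale, inv_mul_cancel₀ h'.ne'])
    rw [ha, hb, orbAvg_scale, sV_scale, sV_scale, hB_scale (inv_nonneg.2 h.le),
      hB_scale (inv_nonneg.2 h'.le), ← ha, ← hb] at key
    have hm := mul_le_mul_of_nonneg_left key (mul_nonneg h.le h'.le)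
    simp only [qf4]
    rw [← ha, ← hb]
    have c1 : mass x * (mass x)⁻¹ = 1 := mul_inv_cancel₀ h.ne'
    have c2 : mass y * (mass y)⁻¹ = 1 := mul_inv_cancel₀ h'.ne'
    refine le_trans (le_of_eq ?_) (hm.trans (le_of_eq ?_))
    · linear_combination
        -(4 * orbAvg sV x y) * ((mass y) * (mass y)⁻¹ * c1 + c2)
    · linear_combination
        (sV x * mass y + (hB x - sV x) * qP (iP b) (iU b) (iK b) * mass y) * c1
          + (mass x * sV y + mass x * qP (iP a) (iU a) (iK a) * (hB y - sV y)) * c2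

end Vale.Agent.P154.Four
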